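import Crest.Agent.X262.Ends.Pl
import Crest.Agent.X262.Vb37.Mob

/-!
# Row 262, road B, ENDS (helper85): curves of the swept variety

* `dim_bas_le`, `exists_lift`, `exists_mat`, `exists_cst`;
* `mob_of` : `Ends.ParStmt → Ends.MobStmt`.
-/

set_option autoImplicit false
set_option linter.unusedSectionVars false

noncomputable section

namespace Crest.Agent.X262.Mob85

open Crest.Agent.X277 Crest.Agent.X277.BD Polynomial Matrix
open Crest.Agent.X262.Vb Crest.Agent.X262.Vb37 Crest.Agent.X262.Ends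
open Crest.Agent.X262.Bub96 (hv)

variable {J : Type} [Fintype J] [DecidableEq J] {io : J → Type} [∀ j, Fintype (io j)]
  [∀ j, DecidableEq (io j)] {K E L : Type} [Field K] [Algebra ℂ K] [Field E] [Algebra ℂ E]
  [Field L] [Algebra ℂ L]

theorem eft_bas (ν : J → ℕ) (y : Pnt io E) : Algebra.EssFiniteType ℂ (bas ν y) :=
  IntermediateField.essFiniteType_iff.2 (IntermediateField.fg_adjoin_of_finite
    ((Set.finite_range fun x : Σ j, io j × io j => y x.1 x.2.1 / y x.1 x.2.2).subset (by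
      rintro _ ⟨j, i, i', -, rfl⟩
      exact ⟨⟨j, i, i'⟩, rfl⟩)))

theorem dim_bas_le (α : E →ₐ[ℂ] L) (ν : J → ℕ) {y : Pnt io E} {y' : Pnt io L}
    (h : ∀ j, ν j ≠ 0 → ∀ i, y' j i = α (y j i)) : dim ℂ (bas ν y) ≤ dim ℂ (bas ν y') := by
  have := eft_bas ν y
  have := eft_bas ν y'
  have h1 : (bas ν y).map α ≤ bas ν y' := by
    rw [bas, IntermediateField.adjoin_map]
    refine IntermediateField.adjoin.mono _ _ _ ?_
    rintro _ ⟨_, ⟨j, i, i', hj, rfl⟩, rfl⟩
    exact ⟨j, i, i', hj, by rw [h j hj, h j hj, map_div₀]⟩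
  exact dim_le ((IntermediateField.inclusion h1).comp
    (IntermediateField.equivMap (bas ν y) α).toAlgHom)

theorem exists_lift (α : E →ₐ[ℂ] L) (β : K →ₐ[ℂ] L) (h : ∀ x, β x ∈ α.range) :
    ∃ γ : K →ₐ[ℂ] E, ∀ x, α (γ x) = β x :=
  ⟨(AlgEquiv.ofInjective α α.injective).symm.toAlgHom.comp (β.codRestrict α.range h), fun x =>
    congrArg Subtype.val ((AlgEquiv.ofInjective α α.injective).apply_symm_apply ⟨β x, h x⟩)⟩

theorem hev_one (p : E[X]) (w : Fin 2 → E) : hev 1 p w = p.coeff 1 * w 0 + p.coeff 0 * w 1 := by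
  simp [hev, Finset.sum_range_succ, add_comm]

theorem hev_gen {n : ℕ} {p : E[X]} (h : p.natDegree ≤ n) :
    hev n (p.map (algebraMap E (RatFunc E))) (hx (some RatFunc.X)) =
      algebraMap E[X] (RatFunc E) p := by
  rw [hev_hx (natDegree_map_le.trans h), hv, eval_map_algebraMap,
    RatFunc.aeval_X_left_eq_algebraMap]

/-- two linear forms with a nonzero determinant determine the point of the line -/
theorem exists_mat {p q p' q' : E[X]} (hp : p.natDegree ≤ 1) (hq : q.natDegree ≤ 1)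
    (h : p.coeff 0 * q.coeff 1 ≠ q.coeff 0 * p.coeff 1) {w : Fin 2 → RatFunc E}
    (h1 : algebraMap E[X] (RatFunc E) p = hev 1 (p'.map (algebraMap E (RatFunc E))) w)
    (h2 : algebraMap E[X] (RatFunc E) q = hev 1 (q'.map (algebraMap E (RatFunc E))) w) :
    ∃ μ : Matrix (Fin 2) (Fin 2) E, μ.det ≠ 0 ∧
      w = μ.map (algebraMap E (RatFunc E)) *ᵥ hx (some RatFunc.X) := by
  have hC : ∀ c : E, algebraMap E[X] (RatFunc E) (C c) = algebraMap E (RatFunc E) c := fun c =>
    (IsScalarTower.algebraMap_apply E E[X] (RatFunc E) c).symm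
  rw [hev_one, coeff_map, coeff_map] at h1 h2
  have hD : p'.coeff 1 * q'.coeff 0 - p'.coeff 0 * q'.coeff 1 ≠ 0 := fun hD => by
    have hD' := congrArg (algebraMap E (RatFunc E)) hD
    rw [map_sub, map_mul, map_mul, map_zero] at hD'
    have key : ∀ a b : E, C b * p = C a * q → a = 0 := fun a b e => by
      have e0 := congrArg (coeff · 0) e
      have e1 := congrArg (coeff · 1) e
      simp only [coeff_C_mul] at e0 e1
      exact (mul_eq_zero.1 (by linear_combination p.coeff 1 * e0 - p.coeff 0 * e1)).resolve_right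
        (sub_ne_zero.2 h)
    have a0 := key (p'.coeff 0) (q'.coeff 0) (RatFunc.algebraMap_injective E (by
      rw [map_mul, map_mul, hC, hC, h1, h2]; linear_combination w 0 * hD'))
    have a1 := key (p'.coeff 1) (q'.coeff 1) (RatFunc.algebraMap_injective E (by
      rw [map_mul, map_mul, hC, hC, h1, h2]; linear_combination -w 1 * hD'))
    rw [a0, a1, map_zero, zero_mul, zero_mul, add_zero, map_eq_zero_iff _
      (RatFunc.algebraMap_injective E)] at h1
    simp [h1] at h
  have hD' := (_root_.map_ne_zero (algebraMap E (RatFunc E))).2 hD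
  rw [map_sub, map_mul, map_mul] at hD'
  rw [← hev_gen hp, hev_one, coeff_map, coeff_map] at h1
  rw [← hev_gen hq, hev_one, coeff_map, coeff_map] at h2
  refine ⟨(p'.coeff 1 * q'.coeff 0 - p'.coeff 0 * q'.coeff 1)⁻¹ •
    !![q'.coeff 0 * p.coeff 1 - p'.coeff 0 * q.coeff 1, q'.coeff 0 * p.coeff 0 - p'.coeff 0 * q.coeff 0;
      p'.coeff 1 * q.coeff 1 - q'.coeff 1 * p.coeff 1, p'.coeff 1 * q.coeff 0 - q'.coeff 1 * p.coeff 0],
    ?_, ?_⟩
  · rw [det_smul, det_fin_two_of]
    refine mul_ne_zero (pow_ne_zero _ (inv_ne_zero hD)) fun h0 => mul_ne_zero hD (sub_ne_zero.2 h) ?_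
    linear_combination -h0
  · simp only [hx, cons_val_zero, cons_val_one] at h1 h2
    generalize algebraMap E (RatFunc E) = a at hD' h1 h2 ⊢
    have hI := mul_inv_cancel₀ hD'
    funext i
    fin_cases i
    · simp [hx, mulVec, dotProduct, Fin.sum_univ_two]
      linear_combination (a (p'.coeff 0) * h2 - a (q'.coeff 0) * h1) *
        (a (p'.coeff 1) * a (q'.coeff 0) - a (p'.coeff 0) * a (q'.coeff 1))⁻¹ - w 0 * hI
    · simp [hx, mulVec, dotProduct, Fin.sum_univ_two]
      linear_combination (a (q'.coeff 1) * h1 - a (p'.coeff 1) * h2) *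
        (a (p'.coeff 1) * a (q'.coeff 0) - a (p'.coeff 0) * a (q'.coeff 1))⁻¹ - w 1 * hI

/-- a multiple of a coprime tuple of the same degree is a constant multiple -/
theorem exists_cst {ι : Type} [Fintype ι] {n : ℕ} {g m : ι → E[X]} (hg : ∀ i, (g i).natDegree ≤ n)
    (h0 : ∃ i, g i ≠ 0) (h1 : ∃ i, (m i).coeff n ≠ 0) (h2 : Ideal.span (Set.range m) = ⊤)
    {c : RatFunc E}
    (h : ∀ i, algebraMap E[X] (RatFunc E) (g i) = c * algebraMap E[X] (RatFunc E) (m i)) :
    ∃ e : E, e ≠ 0 ∧ ∀ i, g i = C e * m i := by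
  obtain ⟨u, hu⟩ := Ideal.mem_span_range_iff_exists_fun.1 ((Ideal.eq_top_iff_one _).1 h2)
  have h3 : algebraMap E[X] (RatFunc E) (∑ i, u i * g i) = c := by
    rw [← mul_one c, ← map_one (algebraMap E[X] (RatFunc E)), ← hu, map_sum, map_sum,
      Finset.mul_sum]
    exact Finset.sum_congr rfl fun i _ => by rw [map_mul, map_mul, h, mul_left_comm]
  have h4 : ∀ i, g i = (∑ i, u i * g i) * m i := fun i =>
    RatFunc.algebraMap_injective E (by rw [map_mul, h3, h])
  generalize ∑ i, u i * g i = p at h4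
  obtain ⟨i0, hi0⟩ := h0
  have h5 : p ≠ 0 := fun e => hi0 (by rw [h4, e, zero_mul])
  obtain ⟨i, hi⟩ := h1
  have h6 := hg i
  have h7 := le_natDegree_of_ne_zero hi
  rw [h4, natDegree_mul h5 fun e => hi (by rw [e, coeff_zero])] at h6
  have h8 := eq_C_of_natDegree_eq_zero (show p.natDegree = 0 by omega)
  exact ⟨p.coeff 0, fun e => h5 (by rw [h8, e, C_0]), fun i => by rw [← h8, ← h4]⟩

/-- **MOB** -/
theorem mob_of (hP : ParStmt) : MobStmt := by
  intro J _ _ io _ _ A _ T d ν j₁ K _ _ _ f hL E _ _ g hd h0 hS hb ⟨i₁, i₂, hm⟩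
  let a := algebraMap E[X] (RatFunc E)
  let α : E →ₐ[ℂ] RatFunc E := IsScalarTower.toAlgHom ℂ E (RatFunc E)
  have hy : ∀ j, ν j ≠ 0 → ∀ i, a (g j i) = α ((g j i).coeff 0) := fun j hj i => by
    have h := eq_C_of_natDegree_le_zero ((hd j i).trans (hL.zero j hj).le)
    rw [h, coeff_C_zero]
    exact (IsScalarTower.algebraMap_apply E E[X] (RatFunc E) _).symm
  obtain ⟨β', t, c, hc, h1⟩ := (hP T d ν j₁ f hL (RatFunc E) (fun j i => a (g j i))
    ⟨fun j => (h0 j).imp fun i hi => (map_ne_zero_iff _ (RatFunc.algebraMap_injective E)).2 hi,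
      fun q κ hq h => by
        have h2 := MvPolynomial.comp_aeval_apply (fun v : Vr io => g v.1 v.2)
          (IsScalarTower.toAlgHom ℂ E[X] (RatFunc E)) q
        rw [show MvPolynomial.aeval (fun v : Vr io => g v.1 v.2) q = 0 from hS q κ hq h,
          map_zero] at h2
        exact h2.symm⟩).2 (hb.trans (dim_bas_le α ν hy))
  have h2 : ∀ x, β' x ∈ α.range := fun x => by
    have h3 : bas ν (fun j i => (f j i).coeff 0) ≤ α.fieldRange.comap β' := by
      refine IntermediateField.adjoin_le_iff.2 ?_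
      rintro _ ⟨j, i, i', hj, rfl⟩
      have h4 : ∀ i, α ((g j i).coeff 0) = c j * β' ((f j i).coeff 0) := fun i => by
        have h5 := eq_C_of_natDegree_le_zero ((hL.cp.1 j i).trans (hL.zero j hj).le)
        rw [← hy j hj, h1, hL.zero j hj]
        congr 1
        rw [h5]
        cases t <;> simp [hv]
      exact ⟨(g j i).coeff 0 / (g j i').coeff 0, by
        change α _ = β' _
        rw [map_div₀, map_div₀, h4, h4, mul_div_mul_left _ _ (hc j)]⟩
    exact h3 (hL.gen ▸ IntermediateField.mem_top)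
  obtain ⟨β, hβ⟩ := exists_lift α β' h2
  have h3 : ∀ j i, a (g j i) = c j * (c j₁ ^ d j)⁻¹ * hev (d j)
      (((f j i).map (β : K →+* E)).map (algebraMap E (RatFunc E))) (c j₁ • hx t) := fun j i => by
    rw [hev_smul, mul_assoc, inv_mul_cancel_left₀ (pow_ne_zero _ (hc j₁)), Polynomial.map_map,
      hev_hx (natDegree_map_le.trans (hL.cp.1 j i)), h1]
    congr 3
    exact RingHom.ext fun x => (hβ x).symm
  have h4 : ∀ i, a (g j₁ i) = hev 1
      (((f j₁ i).map (β : K →+* E)).map (algebraMap E (RatFunc E))) (c j₁ • hx t) := fun i => by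
    rw [h3, hL.one, pow_one, mul_inv_cancel₀ (hc j₁), one_mul]
  obtain ⟨μ, hμ, hw⟩ := exists_mat (hL.one ▸ hd j₁ i₁) (hL.one ▸ hd j₁ i₂) hm (h4 i₁) (h4 i₂)
  have cp := cp_mob (hL.cp.map (β : K →+* E)) hμ (c := fun _ => 1) fun _ => one_ne_zero
  simp only [C_1, one_mul] at cp
  choose e he he' using fun j => exists_cst (hd j) (h0 j) (cp.2.1 j) (cp.2.2 j)
    (c := c j * (c j₁ ^ d j)⁻¹) fun i => by
      rw [← hev_gen (natDegree_mob _ _ _), mob_map, hev_mob, ← hw]
      exact h3 j i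
  exact ⟨β, μ, e, hμ, he, he'⟩

end Crest.Agent.X262.Mob85
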